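import Vale.Agent.P146.H641.Flat

/-!
# P146: a change of law with entropy `K` cannot move the mean of the free energy by more than
`18 (1+√Var F) (K + 3/2)` (Donsker-Varadhan and the exponential moment of `H641`)
-/

open MeasureTheory ProbabilityTheory

namespace Vale.Agent.P146.H632.DV

open Vale.Agent.P146

/-- Young: `a b ≤ a log a - a + e^b`. -/
lemma young {a : ℝ} (ha : 0 ≤ a) (b : ℝ) : a * b ≤ a * Real.log a - a + Real.exp b := by
  rcases ha.eq_or_lt with h | h
  · subst h
    simpa using (Real.exp_pos b).le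
  · have h1 := Real.add_one_le_exp (b - Real.log a)
    have h2 : Real.exp (b - Real.log a) * a = Real.exp b := by
      rw [Real.exp_sub, Real.exp_log h]
      field_simp
    nlinarith [mul_le_mul_of_nonneg_right h1 ha]

section general

variable {Ω : Type*} [MeasurableSpace Ω] {μ : Measure Ω} [IsProbabilityMeasure μ]

/-- Donsker-Varadhan for one density. -/
theorem dv_gen {h u : Ω → ℝ} (h0 : ∀ ω, 0 ≤ h ω) (hi : ∫ ω, h ω ∂μ = 1)
    (hl : Integrable (fun ω => h ω * Real.log (h ω)) μ)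
    (hu : Integrable (fun ω => h ω * u ω) μ)
    (he : Integrable (fun ω => Real.exp (u ω)) μ) :
    ∫ ω, h ω * u ω ∂μ ≤ ∫ ω, h ω * Real.log (h ω) ∂μ + Real.log (∫ ω, Real.exp (u ω) ∂μ) := by
  have hh : Integrable h μ := by
    by_contra hc
    rw [integral_undef hc] at hi
    exact zero_ne_one hi
  obtain ⟨Z, hZ⟩ : ∃ Z, Z = ∫ ω, Real.exp (u ω) ∂μ := ⟨_, rfl⟩
  have hZ0 : 0 < Z := by
    rw [hZ]
    exact integral_exp_pos he
  rw [← hZ]
  have hpt : ∀ ω, h ω * u ω - h ω * Real.log Z ≤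
      h ω * Real.log (h ω) - h ω + Real.exp (u ω) * Z⁻¹ := by
    intro ω
    have h1 := young (h0 ω) (u ω - Real.log Z)
    have h2 : Real.exp (u ω - Real.log Z) = Real.exp (u ω) * Z⁻¹ := by
      rw [Real.exp_sub, Real.exp_log hZ0]
      rfl
    rw [h2] at h1
    linarith [mul_sub (h ω) (u ω) (Real.log Z)]
  have hint := integral_mono (hu.sub (hh.mul_const _)) ((hl.sub hh).add (he.mul_const Z⁻¹)) hpt
  have e1 : ∫ ω, (h ω * u ω - h ω * Real.log Z) ∂μ = ∫ ω, h ω * u ω ∂μ - Real.log Z := by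
    rw [integral_sub hu (hh.mul_const _), integral_mul_const, hi, one_mul]
  have e2 : ∫ ω, (h ω * Real.log (h ω) - h ω + Real.exp (u ω) * Z⁻¹) ∂μ =
      ∫ ω, h ω * Real.log (h ω) ∂μ - 1 + 1 := by
    have h1 : Integrable (fun ω => h ω * Real.log (h ω) - h ω) μ := hl.sub hh
    rw [integral_add h1 (he.mul_const Z⁻¹), integral_sub hl hh, integral_mul_const, hi,
      ← hZ, mul_inv_cancel₀ hZ0.ne']
  have hint2 : ∫ ω, h ω * u ω ∂μ - Real.log Z ≤ ∫ ω, h ω * Real.log (h ω) ∂μ - 1 + 1 := by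
    rw [← e1, ← e2]
    exact hint
  linarith

end general

variable (n : ℕ) (β : ℝ)

/-- **A change of the disorder law with density `h` and entropy `K = ∫ h log h` moves the mean of
the free energy by at most `18 (1 + √Var F) (K + 3/2)`.** -/
theorem shift {h : (Pair n → ℝ) → ℝ} (h0 : ∀ g, 0 ≤ h g) (hi : ∫ g, h g ∂(disorder n) = 1)
    (hl : Integrable (fun g => h g * Real.log (h g)) (disorder n))
    (hF : Integrable (fun g => h g * freeEnergy n β g) (disorder n)) :
    ∫ g, h g * freeEnergy n β g ∂(disorder n) - ∫ g, freeEnergy n β g ∂(disorder n) ≤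
      18 * (1 + √Var[freeEnergy n β; disorder n]) *
        (∫ g, h g * Real.log (h g) ∂(disorder n) + 3 / 2) := by
  have hs := H641.sd1_pos n β
  obtain ⟨s, hs'⟩ : ∃ s, s = H641.sd1 n β := ⟨_, rfl⟩
  have hs0 : 0 < s := by
    rw [hs']
    exact hs
  obtain ⟨x, hx⟩ : ∃ x : ℝ, x = 1 / (18 * s) := ⟨_, rfl⟩
  have hx0 : 0 < x := by
    rw [hx]
    positivity
  have hx1 : x * (18 * H641.sd1 n β) = 1 := by
    rw [hx, ← hs']
    field_simp
  have hm := H641.exp_moment n β hx0.le hx1.le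
  have hh : Integrable h (disorder n) := by
    by_contra hc
    rw [integral_undef hc] at hi
    exact zero_ne_one hi
  have hu : Integrable (fun g => h g * (x * (freeEnergy n β g - H641.mean n β)))
      (disorder n) := by
    have h1 := (hF.const_mul x).sub (hh.mul_const (x * H641.mean n β))
    refine h1.congr (Filter.Eventually.of_forall fun g => ?_)
    simp only [Pi.sub_apply]
    ring
  have h1 := dv_gen h0 hi hl hu hm.1
  have h2 : Real.log (∫ g, Real.exp (x * (freeEnergy n β g - H641.mean n β)) ∂(disorder n)) ≤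
      3 / 2 :=
    (Real.log_le_log (integral_exp_pos hm.1) hm.2).trans H641.log_seven_half
  have e1 : ∫ g, h g * (x * (freeEnergy n β g - H641.mean n β)) ∂(disorder n) =
      x * (∫ g, h g * freeEnergy n β g ∂(disorder n) - H641.mean n β) := by
    have e2 : (fun g => h g * (x * (freeEnergy n β g - H641.mean n β))) =
        fun g => x * (h g * freeEnergy n β g) - h g * (x * H641.mean n β) := by
      funext g
      ring
    rw [e2, integral_sub (hF.const_mul x) (hh.mul_const _), integral_const_mul,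
      integral_mul_const, hi]
    ring
  rw [e1] at h1
  have h3 : x * (∫ g, h g * freeEnergy n β g ∂(disorder n) - H641.mean n β) ≤
      ∫ g, h g * Real.log (h g) ∂(disorder n) + 3 / 2 := by linarith
  have h4 : 18 * s * (x * (∫ g, h g * freeEnergy n β g ∂(disorder n) - H641.mean n β)) ≤
      18 * s * (∫ g, h g * Real.log (h g) ∂(disorder n) + 3 / 2) :=
    mul_le_mul_of_nonneg_left h3 (by positivity)
  have e3 : 18 * s * (x * (∫ g, h g * freeEnergy n β g ∂(disorder n) - H641.mean n β)) =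
      ∫ g, h g * freeEnergy n β g ∂(disorder n) - H641.mean n β := by
    rw [← mul_assoc]
    have : 18 * s * x = 1 := by
      rw [hs']
      linarith
    rw [this, one_mul]
  rw [e3, hs'] at h4
  exact h4

/-- **The lower bound of the variance from one change of law.** -/
theorem var_of_shift {h : (Pair n → ℝ) → ℝ} (h0 : ∀ g, 0 ≤ h g)
    (hi : ∫ g, h g ∂(disorder n) = 1)
    (hl : Integrable (fun g => h g * Real.log (h g)) (disorder n))
    (hF : Integrable (fun g => h g * freeEnergy n β g) (disorder n))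
    {K D : ℝ} (hK : ∫ g, h g * Real.log (h g) ∂(disorder n) ≤ K) (hK0 : 0 ≤ K) (hD : 0 ≤ D)
    (hD1 : D ≤ ∫ g, h g * freeEnergy n β g ∂(disorder n) - ∫ g, freeEnergy n β g ∂(disorder n)) :
    D ^ 2 / (648 * (K + 3 / 2) ^ 2) - 1 ≤ Var[freeEnergy n β; disorder n] := by
  have h1 := shift n β h0 hi hl hF
  obtain ⟨V, hV⟩ : ∃ V, V = Var[freeEnergy n β; disorder n] := ⟨_, rfl⟩
  have hV0 : 0 ≤ V := by rw [hV]; exact variance_nonneg _ _
  rw [← hV] at h1 ⊢
  have hs0 : 0 ≤ √V := Real.sqrt_nonneg V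
  have hs1 : √V ^ 2 = V := Real.sq_sqrt hV0
  have h2 : D ≤ 18 * (1 + √V) * (K + 3 / 2) := by
    refine (hD1.trans h1).trans ?_
    exact mul_le_mul_of_nonneg_left (by linarith) (by positivity)
  have h3 : D ^ 2 ≤ (18 * (1 + √V) * (K + 3 / 2)) ^ 2 := pow_le_pow_left₀ hD h2 2
  have h5 : (1 + √V) ^ 2 ≤ 2 + 2 * V := by nlinarith [sq_nonneg (√V - 1)]
  have h6 : D ^ 2 ≤ 648 * (K + 3 / 2) ^ 2 * (1 + V) := by
    calc D ^ 2 ≤ (18 * (1 + √V) * (K + 3 / 2)) ^ 2 := h3
      _ = 324 * (K + 3 / 2) ^ 2 * (1 + √V) ^ 2 := by ring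
      _ ≤ 324 * (K + 3 / 2) ^ 2 * (2 + 2 * V) :=
          mul_le_mul_of_nonneg_left h5 (by positivity)
      _ = 648 * (K + 3 / 2) ^ 2 * (1 + V) := by ring
  have h7 : D ^ 2 / (648 * (K + 3 / 2) ^ 2) ≤ 1 + V := by
    rw [div_le_iff₀ (by positivity)]
    linarith
  linarith

end Vale.Agent.P146.H632.DV
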