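import Vale.Agent.P146.H546.Fa

/-!
P146, plan R1: the lower bound of the two-row form which uses only the sizes of the nonlinear parts
(row LAM). The second field is the sum of a part `db` which lives at the first time and of an
orthogonal increment `e` with its own linear part in the orthonormal coordinates `z'`.
-/

open Finset Matrix

set_option linter.unusedSectionVars false

namespace Vale.Agent.P146.H632

open Vale.Agent.P146.H546

variable {ι : Type} [Fintype ι] [DecidableEq ι]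
variable {L : Type*} [NormedAddCommGroup L] [InnerProductSpace ℝ L]

lemma gm_add_right (x y w : ι → L) : gm w (fun i => x i + y i) = gm w x + gm w y := by
  ext i j; simp only [gm, Matrix.add_apply, inner_add_right]

lemma gm_add_left (x y w : ι → L) : gm (fun i => x i + y i) w = gm x w + gm y w := by
  ext i j; simp only [gm, Matrix.add_apply, inner_add_left]

lemma dt_mul_self_gm_nonneg {M : Matrix ι ι ℝ} (hM : Mᵀ = M) (x : ι → L) :
    0 ≤ dt (M * M) (gm x x) := by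
  rw [← ip_mv M M hM, ip_self]
  exact n2_nonneg _

lemma dt_smul_smul (c : ℝ) (X : Matrix ι ι ℝ) : dt (c • X) (c • X) = c ^ 2 * dt X X := by
  simp only [dt, Matrix.smul_apply, smul_eq_mul, mul_sum]
  refine sum_congr rfl fun i _ => sum_congr rfl fun j _ => ?_
  ring

lemma dt_add_self_le (X Y : Matrix ι ι ℝ) : dt (X + Y) (X + Y) ≤ 2 * dt X X + 2 * dt Y Y := by
  simp only [dt, Matrix.add_apply, mul_sum, ← sum_add_distrib]
  refine sum_le_sum fun i _ => sum_le_sum fun j _ => ?_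
  nlinarith [sq_nonneg (X i j - Y i j)]

/-- The form splits: the increment gives a nonnegative term. -/
lemma Gf_add {a db e : ι → L} (hae : ∀ i j, inner ℝ (a i) (e j) = 0)
    (hde : ∀ i j, inner ℝ (db i) (e j) = 0) :
    Gf a (fun i => db i + e i) = Gf a db + dt (gm a a) (gm e e) := by
  have e1 : gm a e = 0 := by ext i j; exact hae i j
  have e2 : gm db e = 0 := by ext i j; exact hde i j
  have e3 : gm e db = 0 := by
    ext i j
    show inner ℝ (e i) (db j) = _
    rw [real_inner_comm]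
    exact hde j i
  rw [Gf, Gf, gm_add_right, gm_add_right, gm_add_left, gm_add_left, e1, e2, e3, add_zero,
    add_zero, zero_add, dt_add_right]
  ring

/-- **(LAM), fixed bulk, abstract form.** -/
theorem lam_abs {z z' a db e : ι → L} {M1 M2 M2' : Matrix ι ι ℝ} {an dn en : ι → L}
    (h1 : Dec z a M1 an) (h2 : Dec z db M2 dn) (h3 : Dec z' e M2' en)
    (hae : ∀ i j, inner ℝ (a i) (e j) = 0) (hde : ∀ i j, inner ℝ (db i) (e j) = 0)
    {lam : ℝ} (hM : M2' = lam • M2) {α0 α1 δ0 δ1 : ℝ} (hα0 : 0 ≤ α0) (hα1 : 0 ≤ α1)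
    (hδ0 : 0 ≤ δ0) (hδ1 : 0 ≤ δ1) (ha : n2 a ≤ α0 ^ 2) (han : n2 an ≤ α1 ^ 2)
    (hd : n2 db ≤ δ0 ^ 2) (hdn : n2 dn ≤ δ1 ^ 2) :
    lam ^ 2 / 2 * dt (gm a fun i => db i + e i) (gm a fun i => db i + e i) ≤
      Gf a (fun i => db i + e i) + (1 + lam ^ 2) * (α0 * δ1 + α1 * δ0) ^ 2 := by
  have e1 : gm a e = 0 := by ext i j; exact hae i j
  have g1 := Gf_ge h1 h2 hα0 hα1 hδ0 hδ1 ha han hd hdn
  have g2 : lam ^ 2 * dt (M1 * M2) (M1 * M2) ≤ dt (gm a a) (gm e e) := by
    rw [h1.gm_eq h1, h3.gm_eq h3, dt_add_left, dt_add_right, dt_add_right,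
      dt_sq_sq h1.sy h3.sy, dt_comm (gm an an) (M2' * M2')]
    have p1 := dt_mul_self_gm_nonneg h1.sy en
    have p2 := dt_mul_self_gm_nonneg h3.sy an
    have p3 := dt_gm_nonneg an en
    have p4 : dt (M1 * M2') (M1 * M2') = lam ^ 2 * dt (M1 * M2) (M1 * M2) := by
      rw [hM, Matrix.mul_smul, dt_smul_smul]
    linarith
  have g3 : dt (gm a db) (gm a db) ≤ 2 * dt (M1 * M2) (M1 * M2) + 2 * (α0 * δ1) ^ 2 := by
    rw [h1.gm_eq h2]
    refine (dt_add_self_le _ _).trans ?_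
    have q1 : dt (gm an dn) (gm an dn) ≤ (α0 * δ1) ^ 2 := by
      refine (dt_gm_le an dn).trans ?_
      rw [mul_pow, ← nr_sq, ← nr_sq]
      exact mul_le_mul (pow_le_pow_left₀ (nr_nonneg _) (h1.nr_le hα0 ha) 2)
        (pow_le_pow_left₀ (nr_nonneg _) (nr_le_of_sq hδ1 hdn) 2) (sq_nonneg _) (sq_nonneg _)
    linarith
  rw [gm_add_right, e1, add_zero, Gf_add hae hde]
  have g4 : (α0 * δ1) ^ 2 ≤ (α0 * δ1 + α1 * δ0) ^ 2 := by
    have : 0 ≤ α1 * δ0 := by positivity
    have : 0 ≤ α0 * δ1 := by positivity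
    nlinarith
  have g5 := mul_le_mul_of_nonneg_left g3 (by positivity : 0 ≤ lam ^ 2 / 2)
  have g6 := mul_le_mul_of_nonneg_left g4 (sq_nonneg lam)
  nlinarith [g1, g2, g5, g6]

/-- the linear part in orthonormal coordinates -/
lemma dec_of {z a : ι → L} {M : Matrix ι ι ℝ}
    (on : ∀ i j, inner ℝ (z i) (z j) = if i = j then (1 : ℝ) else 0) (sy : Mᵀ = M)
    (h : ∀ i j, inner ℝ (z j) (a i) = M i j) :
    Dec z a M (fun i => a i - ∑ j, M i j • z j) := by
  refine ⟨on, sy, fun i => by abel, fun i j => ?_⟩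
  rw [inner_sub_right, h, inner_sum]
  simp only [real_inner_smul_right, on, mul_ite, mul_one, mul_zero, sum_ite_eq, mem_univ,
    if_true, sub_self]

lemma n2_add {x y : ι → L} (h : ∀ i, inner ℝ (x i) (y i) = 0) :
    n2 (fun i => x i + y i) = n2 x + n2 y := by
  simp only [n2, ← sum_add_distrib]
  refine sum_congr rfl fun i _ => ?_
  rw [← real_inner_self_eq_norm_sq, ← real_inner_self_eq_norm_sq, ← real_inner_self_eq_norm_sq,
    inner_add_left, inner_add_right, inner_add_right, h i, real_inner_comm (x i) (y i), h i]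
  ring

/-- **(LAM), fixed bulk, abstract form**: `db` is the projection of the field `d` at the second
time, `MD` is the mean gradient of `d` with respect to the full noise `c z + c' z'`. -/
theorem lam_proj {z z' a d db : ι → L} {M1 MD : Matrix ι ι ℝ} {c c' : ℝ} (hc : 0 < c)
    (hcc : c ^ 2 + c' ^ 2 = 1) (on : ∀ i j, inner ℝ (z i) (z j) = if i = j then (1 : ℝ) else 0)
    (on' : ∀ i j, inner ℝ (z' i) (z' j) = if i = j then (1 : ℝ) else 0)
    (s1 : M1ᵀ = M1) (sD : MDᵀ = MD) (haz : ∀ i j, inner ℝ (z j) (a i) = M1 i j)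
    (hdz : ∀ i j, inner ℝ (z j) (d i) = c * MD i j)
    (hdz' : ∀ i j, inner ℝ (z' j) (d i) = c' * MD i j)
    (hbz' : ∀ i j, inner ℝ (z' j) (db i) = 0)
    (pa : ∀ i j, inner ℝ (a i) (d j - db j) = 0) (pb : ∀ i j, inner ℝ (db i) (d j - db j) = 0)
    (pz : ∀ i j, inner ℝ (z i) (d j - db j) = 0)
    {α0 α1 δ0 δ1 : ℝ} (hα0 : 0 ≤ α0) (hα1 : 0 ≤ α1) (hδ0 : 0 ≤ δ0) (hδ1 : 0 ≤ δ1)
    (ha : n2 a ≤ α0 ^ 2) (han : n2 a - dt M1 M1 ≤ α1 ^ 2) (hd : n2 d ≤ δ0 ^ 2)
    (hdn : n2 d - dt MD MD ≤ δ1 ^ 2) :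
    c' ^ 2 / (2 * c ^ 2) * dt (gm a d) (gm a d) ≤
      Gf a d + 1 / c ^ 2 * (α0 * δ1 + α1 * δ0) ^ 2 := by
  have hsm : ∀ t : ℝ, (t • MD)ᵀ = t • MD := fun t => by rw [transpose_smul, sD]
  have D1 := dec_of on s1 haz
  have D2 : Dec z db (c • MD) (fun i => db i - ∑ j, (c • MD) i j • z j) := by
    refine dec_of on (hsm c) fun i j => ?_
    have h := pz j i
    rw [inner_sub_right, hdz] at h
    rw [Matrix.smul_apply, smul_eq_mul]
    linarith
  have D3 : Dec z' (fun i => d i - db i) (c' • MD)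
      (fun i => (d i - db i) - ∑ j, (c' • MD) i j • z' j) := by
    refine dec_of on' (hsm c') fun i j => ?_
    rw [inner_sub_right, hdz', hbz', Matrix.smul_apply, smul_eq_mul, sub_zero]
  have ed : (fun i => db i + (d i - db i)) = d := by
    funext i
    abel
  have n1 := n2_add (x := db) (y := fun i => d i - db i) fun i => pb i i
  rw [ed] at n1
  have n2' := D2.n2_eq
  have n3 := D3.n2_eq
  rw [dt_smul_smul] at n2' n3
  have k1 := n2_nonneg (fun i => d i - db i)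
  have k2 := n2_nonneg (fun i => (d i - db i) - ∑ j, (c' • MD) i j • z' j)
  have q1 := D1.n2_eq
  have r1 : n2 (fun i => a i - ∑ j, M1 i j • z j) ≤ α1 ^ 2 := by linarith
  have r2 : n2 db ≤ δ0 ^ 2 := by linarith
  have r3 : n2 (fun i => db i - ∑ j, (c • MD) i j • z j) ≤ δ1 ^ 2 := by
    have e1 : c ^ 2 * dt MD MD + c' ^ 2 * dt MD MD = dt MD MD := by
      rw [← add_mul, hcc, one_mul]
    linarith
  have h := lam_abs D1 D2 D3 pa pb (lam := c' / c)
    (by rw [smul_smul, div_mul_cancel₀ _ hc.ne']) hα0 hα1 hδ0 hδ1 ha r1 r2 r3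
  rw [ed] at h
  have e2 : (c' / c) ^ 2 / 2 = c' ^ 2 / (2 * c ^ 2) := by
    rw [div_pow]
    field_simp
  have e3 : 1 + (c' / c) ^ 2 = 1 / c ^ 2 := by
    have hc2 : c ^ 2 ≠ 0 := (pow_pos hc 2).ne'
    rw [div_pow, eq_div_iff hc2, add_mul, one_mul, div_mul_cancel₀ _ hc2, hcc]
  rw [e2, e3] at h
  exact h

end Vale.Agent.P146.H632
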