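import Vale.Agent.P146.H632.LamA
import Vale.Agent.P146.H546.Fc
import Vale.Agent.P146.H425.R1Def
import Vale.Agent.P146.H826.LawP

/-!
P146, plan R1, row LAM: the fixed bulk inequality for Gaussian fields at two times, in terms of
plain integrals. `A` is the field at the first time (function of `y`), `D` the field at the second
time (function of `c • y + c' • y'`).
-/

open Finset Matrix MeasureTheory ProbabilityTheory

set_option linter.unusedSectionVars false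

namespace Vale.Agent.P146.H632

open Vale.Agent.P157.Lv Vale.Agent.P146.H546 Vale.Agent.P146.H425 Vale.Agent.P146.R1
  Vale.Agent.P146.H712

variable {ι : Type} [Fintype ι] [DecidableEq ι]

/-- the Gaussian vector `c • y + c' • y'` -/
def mx (c c' : ℝ) (w : ι ⊕ ι → ℝ) : ι → ℝ := fun i => c * w (Sum.inl i) + c' * w (Sum.inr i)

lemma meas_mx (c c' : ℝ) : Measurable (mx (ι := ι) c c') := by
  unfold mx
  fun_prop

lemma norm_mx_le (c c' : ℝ) (w : ι ⊕ ι → ℝ) : ‖mx c c' w‖ ≤ (|c| + |c'|) * ‖w‖ := by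
  refine (pi_norm_le_iff_of_nonneg (by positivity)).2 fun i => ?_
  have h1 := norm_le_pi_norm w (Sum.inl i)
  have h2 := norm_le_pi_norm w (Sum.inr i)
  rw [Real.norm_eq_abs] at h1 h2
  calc ‖mx c c' w i‖ = |c * w (Sum.inl i) + c' * w (Sum.inr i)| := rfl
    _ ≤ |c * w (Sum.inl i)| + |c' * w (Sum.inr i)| := abs_add_le _ _
    _ = |c| * |w (Sum.inl i)| + |c'| * |w (Sum.inr i)| := by rw [abs_mul, abs_mul]
    _ ≤ (|c| + |c'|) * ‖w‖ := by
      rw [add_mul]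
      exact add_le_add (mul_le_mul_of_nonneg_left h1 (abs_nonneg _))
        (mul_le_mul_of_nonneg_left h2 (abs_nonneg _))

lemma eg_mx {f : (ι → ℝ) → ℝ} (hf : EG f) (c c' : ℝ) : EG fun w => f (mx c c' w) :=
  eg_comp hf (meas_mx c c') (by positivity) (norm_mx_le c c')

lemma mx_elim (c c' : ℝ) (y y' : ι → ℝ) : mx c c' (Sum.elim y y') = c • y + c' • y' := rfl

lemma mx_one (y y' : ι → ℝ) : mx 1 0 (Sum.elim y y') = y := by
  funext i
  simp [mx]

lemma update_inl (c c' : ℝ) (w : ι ⊕ ι → ℝ) (j : ι) (t : ℝ) :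
    mx c c' (Function.update w (Sum.inl j) t) =
      Function.update (mx c c' w) j (c * t + c' * w (Sum.inr j)) := by
  funext i
  by_cases h : i = j
  · subst h
    simp [mx]
  · have h1 : (Sum.inl i : ι ⊕ ι) ≠ Sum.inl j := fun e => h (Sum.inl_injective e)
    simp [mx, h, h1]

lemma update_inr (c c' : ℝ) (w : ι ⊕ ι → ℝ) (j : ι) (t : ℝ) :
    mx c c' (Function.update w (Sum.inr j) t) =
      Function.update (mx c c' w) j (c' * t + c * w (Sum.inl j)) := by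
  funext i
  by_cases h : i = j
  · subst h
    simp [mx, add_comm]
  · have h1 : (Sum.inr i : ι ⊕ ι) ≠ Sum.inr j := fun e => h (Sum.inr_injective e)
    simp [mx, h, h1]

lemma pd_inl {f f' : (ι → ℝ) → ℝ} {j : ι} (h : PD j f f') (c c' : ℝ) :
    PD (Sum.inl j) (fun w => f (mx c c' w)) (fun w => c * f' (mx c c' w)) := by
  intro w x
  simp only [update_inl]
  have h1 : HasDerivAt (fun t : ℝ => c * t + c' * w (Sum.inr j)) c x := by
    simpa using ((hasDerivAt_id x).const_mul c).add_const (c' * w (Sum.inr j))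
  have h2 := h (mx c c' w) (c * x + c' * w (Sum.inr j))
  exact (h2.comp x h1).congr_deriv (mul_comm _ _)

lemma pd_inr {f f' : (ι → ℝ) → ℝ} {j : ι} (h : PD j f f') (c c' : ℝ) :
    PD (Sum.inr j) (fun w => f (mx c c' w)) (fun w => c' * f' (mx c c' w)) := by
  intro w x
  simp only [update_inr]
  have h1 : HasDerivAt (fun t : ℝ => c' * t + c * w (Sum.inl j)) c' x := by
    simpa using ((hasDerivAt_id x).const_mul c').add_const (c * w (Sum.inl j))
  have h2 := h (mx c c' w) (c' * x + c * w (Sum.inl j))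
  exact (h2.comp x h1).congr_deriv (mul_comm _ _)

lemma int_mx {f : (ι → ℝ) → ℝ} (hf : EG f) {c c' : ℝ} (h : c ^ 2 + c' ^ 2 = 1) :
    ∫ w, f (mx c c' w) ∂(gI (ι ⊕ ι)) = ∫ z, f z ∂(gI ι) := by
  rw [int_sum (eg_mx hf c c')]
  have h1 := gI_rot hf (a := c) (b := c') (c := 1) (by rw [h]; norm_num) 0
  simp only [zero_add, one_smul] at h1
  rw [← h1]
  rfl

/-- the average over the second noise -/
noncomputable def pj (c c' : ℝ) (f : (ι → ℝ) → ℝ) (y : ι → ℝ) : ℝ :=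
  ∫ g, f (c • y + c' • g) ∂(gI ι)

lemma eg_pj {f : (ι → ℝ) → ℝ} (hf : EG f) (c c' : ℝ) : EG (pj c c' f) :=
  R1C.eg_int (eg_mx hf c c')

/-- the mixed moment -/
noncomputable def Nt (c c' : ℝ) (f g : (ι → ℝ) → ℝ) : ℝ :=
  ∫ y, ∫ y', f y * g (c • y + c' • y') ∂(gI ι) ∂(gI ι)

lemma mx_one' (w : ι ⊕ ι → ℝ) (i : ι) : mx 1 0 w i = w (Sum.inl i) := by simp [mx]

lemma int_fst {f : (ι → ℝ) → ℝ} (hf : EG f) :
    ∫ w, f (mx 1 0 w) ∂(gI (ι ⊕ ι)) = ∫ z, f z ∂(gI ι) := int_mx hf (by norm_num)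

lemma int_mixed {f g : (ι → ℝ) → ℝ} (hf : EG f) (hg : EG g) (c c' : ℝ) :
    ∫ w, f (mx 1 0 w) * g (mx c c' w) ∂(gI (ι ⊕ ι)) = Nt c c' f g := by
  rw [int_sum ((eg_mx hf 1 0).mul (eg_mx hg c c'))]
  simp only [mx_elim, one_smul, zero_smul, add_zero]
  rfl

lemma int_pj {f g : (ι → ℝ) → ℝ} (hf : EG f) (hg : EG g) (c c' : ℝ) :
    ∫ w, f (mx 1 0 w) * (g (mx c c' w) - pj c c' g (mx 1 0 w)) ∂(gI (ι ⊕ ι)) = 0 := by
  rw [int_sum ((eg_mx hf 1 0).mul ((eg_mx hg c c').sub (eg_mx (eg_pj hg c c') 1 0)))]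
  simp only [mx_elim, one_smul, zero_smul, add_zero]
  have h1 : ∀ y : ι → ℝ, ∫ y', f y * (g (c • y + c' • y') - pj c c' g y) ∂(gI ι) = 0 := by
    intro y
    have h2 : EG fun y' : ι → ℝ => g (c • y + c' • y') := eg_elim (eg_mx hg c c') y
    rw [integral_const_mul, integral_sub h2.integrable (integrable_const _), integral_const]
    simp [pj]
  simp [h1]

lemma int_inl {f f' : (ι → ℝ) → ℝ} {j : ι} (hd : PD j f f') (hf : EG f) (hf' : EG f')
    {c c' : ℝ} (h : c ^ 2 + c' ^ 2 = 1) :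
    ∫ w, w (Sum.inl j) * f (mx c c' w) ∂(gI (ι ⊕ ι)) = c * ∫ z, f' z ∂(gI ι) := by
  rw [(pd_inl hd c c').stein (eg_mx hf c c') ((eg_mx hf' c c').const_mul c), integral_const_mul,
    int_mx hf' h]

lemma int_inr {f f' : (ι → ℝ) → ℝ} {j : ι} (hd : PD j f f') (hf : EG f) (hf' : EG f')
    {c c' : ℝ} (h : c ^ 2 + c' ^ 2 = 1) :
    ∫ w, w (Sum.inr j) * f (mx c c' w) ∂(gI (ι ⊕ ι)) = c' * ∫ z, f' z ∂(gI ι) := by
  rw [(pd_inr hd c c').stein (eg_mx hf c c') ((eg_mx hf' c c').const_mul c'), integral_const_mul,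
    int_mx hf' h]

lemma int_inr_fst {f : (ι → ℝ) → ℝ} (hf : EG f) (j : ι) :
    ∫ w, w (Sum.inr j) * f (mx 1 0 w) ∂(gI (ι ⊕ ι)) = 0 := by
  have h1 : PD (Sum.inr j) (fun w : ι ⊕ ι → ℝ => f (mx 1 0 w)) (fun _ => 0) := by
    intro w x
    have h2 : (fun t => f (mx 1 0 (Function.update w (Sum.inr j) t))) =
        fun _ => f (mx 1 0 w) := by
      funext t
      congr 1
      funext i
      simp [mx]
    rw [h2]
    exact hasDerivAt_const _ _
  rw [h1.stein (eg_mx hf 1 0) (EG.const 0)]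
  simp

/-! ### the nonlinear part -/

lemma pd_lin (M : Matrix ι ι ℝ) (i j : ι) :
    PD j (fun z : ι → ℝ => ∑ k, M i k * z k) (fun _ => M i j) := by
  intro y x
  have h : (fun t => ∑ k, M i k * Function.update y j t k) =
      fun t => M i j * t + ∑ k ∈ Finset.univ.erase j, M i k * y k := by
    funext t
    rw [← Finset.add_sum_erase _ _ (Finset.mem_univ j), Function.update_self]
    congr 1
    refine Finset.sum_congr rfl fun k hk => ?_
    rw [Function.update_of_ne (Finset.ne_of_mem_erase hk)]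
  rw [h]
  simpa using ((hasDerivAt_id x).const_mul (M i j)).add_const
    (∑ k ∈ Finset.univ.erase j, M i k * y k)

/-- the decomposition of a gradient-like field -/
lemma decI {A : ι → (ι → ℝ) → ℝ} {HA : ι → ι → (ι → ℝ) → ℝ}
    (hA : ∀ i, EG (A i)) (pA : ∀ i j, PD j (A i) (HA i j)) (eA : ∀ i j, EG (HA i j))
    (sA : ∀ i j, ∫ z, HA i j z ∂(gI ι) = ∫ z, HA j i z ∂(gI ι)) :
    DecI A (fun i j => ∫ z, HA i j z ∂(gI ι)) := by
  refine ⟨hA, by ext i j; exact sA j i, fun i j => ?_⟩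
  have h1 : PD j (fun z => A i z - ∑ k, (∫ z, HA i k z ∂(gI ι)) * z k)
      (fun z => HA i j z - ∫ z, HA i j z ∂(gI ι)) :=
    (pA i j).sub (pd_lin (fun i j => ∫ z, HA i j z ∂(gI ι)) i j)
  rw [h1.stein ((hA i).sub (eg_lin (fun i j => ∫ z, HA i j z ∂(gI ι)) i))
    ((eA i j).sub (EG.const _)),
    integral_sub (eA i j).integrable (integrable_const _), integral_const]
  simp

/-- The size of the nonlinear part, exactly. -/
lemma nl_eq {A : ι → (ι → ℝ) → ℝ} {HA : ι → ι → (ι → ℝ) → ℝ}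
    (hA : ∀ i, EG (A i)) (pA : ∀ i j, PD j (A i) (HA i j)) (eA : ∀ i j, EG (HA i j))
    (sA : ∀ i j, ∫ z, HA i j z ∂(gI ι) = ∫ z, HA j i z ∂(gI ι)) :
    ∫ z, ∑ i, A i z ^ 2 ∂(gI ι) - ∑ i, ∑ j, (∫ z, HA i j z ∂(gI ι)) ^ 2 =
      ∫ z, ∑ i, (A i z - ∑ k, (∫ z, HA i k z ∂(gI ι)) * z k) ^ 2 ∂(gI ι) := by
  have h := decI hA pA eA sA
  have h1 := h.dec.n2_eq
  rw [n2_el h.eg, n2_el h.egn] at h1
  rw [h1]
  simp only [dt, _root_.sq]
  ring

/-- **The size of the nonlinear part** by the Poincare inequality. -/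
theorem nl_le {A : ι → (ι → ℝ) → ℝ} {HA : ι → ι → (ι → ℝ) → ℝ}
    (hA : ∀ i, EG (A i)) (pA : ∀ i j, PD j (A i) (HA i j)) (eA : ∀ i j, EG (HA i j))
    (sA : ∀ i j, ∫ z, HA i j z ∂(gI ι) = ∫ z, HA j i z ∂(gI ι))
    (h0 : ∀ i, ∫ z, A i z ∂(gI ι) = 0) :
    ∫ z, ∑ i, A i z ^ 2 ∂(gI ι) - ∑ i, ∑ j, (∫ z, HA i j z ∂(gI ι)) ^ 2 ≤
      ∑ i, ∑ j, ∫ z, (HA i j z - ∫ z, HA i j z ∂(gI ι)) ^ 2 ∂(gI ι) := by
  rw [nl_eq hA pA eA sA, integral_finsetSum _ fun i _ =>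
    (((decI hA pA eA sA).egn i).pow 2).integrable]
  refine Finset.sum_le_sum fun i _ => ?_
  have h1 : ∀ j, PD j (fun z => A i z - ∑ k, (∫ z, HA i k z ∂(gI ι)) * z k)
      (fun z => HA i j z - ∫ z, HA i j z ∂(gI ι)) := fun j =>
    (pA i j).sub (pd_lin (fun i j => ∫ z, HA i j z ∂(gI ι)) i j)
  have h2 := row_poincare (Finset.univ : Finset ι) ((decI hA pA eA sA).egn i)
    (fun j _ => h1 j) (fun j _ => (eA i j).sub (EG.const _))
  have h3 : ∀ z, Av (Finset.univ : Finset ι)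
      (fun z => A i z - ∑ k, (∫ z, HA i k z ∂(gI ι)) * z k) z = 0 := by
    intro z
    unfold Av
    have e : ∀ w : ι → ℝ, sw (Finset.univ : Finset ι) z w = w := by
      intro w
      funext e
      simp [sw]
    simp only [e]
    rw [integral_sub (hA i).integrable (eg_lin (fun i j => ∫ z, HA i j z ∂(gI ι)) i).integrable,
      h0 i, integral_finsetSum _ fun k _ => ((EG.coord k).const_mul _).integrable]
    simp only [integral_const_mul, H425.int_coord, mul_zero, Finset.sum_const_zero, sub_zero]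
  simp only [h3, sub_zero] at h2
  exact h2

/-- **(LAM), fixed bulk, Gaussian fields at two times.** -/
theorem lam_gauss {A D : ι → (ι → ℝ) → ℝ} {HA HD : ι → ι → (ι → ℝ) → ℝ}
    (hA : ∀ i, EG (A i)) (hD : ∀ i, EG (D i)) (pA : ∀ i j, PD j (A i) (HA i j))
    (eA : ∀ i j, EG (HA i j)) (pD : ∀ i j, PD j (D i) (HD i j)) (eD : ∀ i j, EG (HD i j))
    (sA : ∀ i j, ∫ z, HA i j z ∂(gI ι) = ∫ z, HA j i z ∂(gI ι))
    (sD : ∀ i j, ∫ z, HD i j z ∂(gI ι) = ∫ z, HD j i z ∂(gI ι))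
    {c c' : ℝ} (hc : 0 < c) (hcc : c ^ 2 + c' ^ 2 = 1)
    {α0 α1 δ0 δ1 : ℝ} (hα0 : 0 ≤ α0) (hα1 : 0 ≤ α1) (hδ0 : 0 ≤ δ0) (hδ1 : 0 ≤ δ1)
    (ha : ∫ z, ∑ i, A i z ^ 2 ∂(gI ι) ≤ α0 ^ 2)
    (han : ∫ z, ∑ i, A i z ^ 2 ∂(gI ι) - ∑ i, ∑ j, (∫ z, HA i j z ∂(gI ι)) ^ 2 ≤ α1 ^ 2)
    (hd : ∫ z, ∑ i, D i z ^ 2 ∂(gI ι) ≤ δ0 ^ 2)
    (hdn : ∫ z, ∑ i, D i z ^ 2 ∂(gI ι) - ∑ i, ∑ j, (∫ z, HD i j z ∂(gI ι)) ^ 2 ≤ δ1 ^ 2) :
    c' ^ 2 / (2 * c ^ 2) * ∑ i, ∑ j, Nt c c' (A i) (D j) ^ 2 ≤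
      ∑ i, ∑ j, ((∫ z, A i z * A j z ∂(gI ι)) * (∫ z, D i z * D j z ∂(gI ι)) -
        Nt c c' (A i) (D j) ^ 2) + 1 / c ^ 2 * (α0 * δ1 + α1 * δ0) ^ 2 := by
  classical
  set z : ι → Lp ℝ 2 (gI (ι ⊕ ι)) := fun j => el fun w => w (Sum.inl j) with hz
  set z' : ι → Lp ℝ 2 (gI (ι ⊕ ι)) := fun j => el fun w => w (Sum.inr j) with hz'
  set a : ι → Lp ℝ 2 (gI (ι ⊕ ι)) := fun i => el fun w => A i (mx 1 0 w) with ha'
  set d : ι → Lp ℝ 2 (gI (ι ⊕ ι)) := fun i => el fun w => D i (mx c c' w) with hd'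
  set db : ι → Lp ℝ 2 (gI (ι ⊕ ι)) := fun i => el fun w => pj c c' (D i) (mx 1 0 w) with hdb
  have ea : ∀ i, EG fun w => A i (mx 1 0 w) := fun i => eg_mx (hA i) 1 0
  have ed : ∀ i, EG fun w => D i (mx c c' w) := fun i => eg_mx (hD i) c c'
  have eb : ∀ i, EG fun w => pj c c' (D i) (mx 1 0 w) := fun i => eg_mx (eg_pj (hD i) c c') 1 0
  have hdiff : ∀ i, d i - db i = el fun w => D i (mx c c' w) - pj c c' (D i) (mx 1 0 w) :=
    fun i => (el_sub (ed i) (eb i)).symm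
  have hon : ∀ i j, inner ℝ (z i) (z j) = if i = j then (1 : ℝ) else 0 := by
    intro i j
    rw [hz, inner_el (EG.coord _) (EG.coord _), H546.int_coord]
    by_cases h : i = j
    · simp [h]
    · rw [if_neg h, if_neg fun e => h (Sum.inl_injective e)]
  have hon' : ∀ i j, inner ℝ (z' i) (z' j) = if i = j then (1 : ℝ) else 0 := by
    intro i j
    rw [hz', inner_el (EG.coord _) (EG.coord _), H546.int_coord]
    by_cases h : i = j
    · simp [h]
    · rw [if_neg h, if_neg fun e => h (Sum.inr_injective e)]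
  have haz : ∀ i j, inner ℝ (z j) (a i) = ∫ z, HA i j z ∂(gI ι) := by
    intro i j
    rw [hz, ha', inner_el (EG.coord _) (ea i),
      int_inl (pA i j) (hA i) (eA i j) (by norm_num), one_mul]
  have hdz : ∀ i j, inner ℝ (z j) (d i) = c * ∫ z, HD i j z ∂(gI ι) := by
    intro i j
    rw [hz, hd', inner_el (EG.coord _) (ed i), int_inl (pD i j) (hD i) (eD i j) hcc]
  have hdz' : ∀ i j, inner ℝ (z' j) (d i) = c' * ∫ z, HD i j z ∂(gI ι) := by
    intro i j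
    rw [hz', hd', inner_el (EG.coord _) (ed i), int_inr (pD i j) (hD i) (eD i j) hcc]
  have hbz' : ∀ i j, inner ℝ (z' j) (db i) = 0 := by
    intro i j
    rw [hz', hdb, inner_el (EG.coord _) (eb i), int_inr_fst (eg_pj (hD i) c c')]
  have pa : ∀ i j, inner ℝ (a i) (d j - db j) = 0 := by
    intro i j
    rw [hdiff, ha', inner_el (ea i) ((ed j).sub (eb j)), int_pj (hA i) (hD j)]
  have pb : ∀ i j, inner ℝ (db i) (d j - db j) = 0 := by
    intro i j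
    rw [hdiff, hdb, inner_el (eb i) ((ed j).sub (eb j)), int_pj (eg_pj (hD i) c c') (hD j)]
  have pz : ∀ i j, inner ℝ (z i) (d j - db j) = 0 := by
    intro i j
    rw [hdiff, hz, inner_el (EG.coord _) ((ed j).sub (eb j))]
    have h := int_pj (EG.coord i) (hD j) c c'
    simp only [mx_one'] at h
    exact h
  have na : n2 a = ∫ z, ∑ i, A i z ^ 2 ∂(gI ι) := by
    rw [ha', n2_el ea]
    exact int_fst (EG.sum _ fun i _ => (hA i).pow 2)
  have nd : n2 d = ∫ z, ∑ i, D i z ^ 2 ∂(gI ι) := by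
    rw [hd', n2_el ed]
    exact int_mx (f := fun z => ∑ i, D i z ^ 2) (EG.sum _ fun i _ => (hD i).pow 2) hcc
  have dm : ∀ M : ι → ι → ℝ, dt (M : Matrix ι ι ℝ) M = ∑ i, ∑ j, M i j ^ 2 := by
    intro M
    simp only [dt, _root_.sq]
  have h := lam_proj (z := z) (z' := z') (a := a) (d := d) (db := db)
    (M1 := fun i j => ∫ z, HA i j z ∂(gI ι)) (MD := fun i j => ∫ z, HD i j z ∂(gI ι)) hc hcc
    hon hon' (by ext i j; exact sA j i) (by ext i j; exact sD j i) haz hdz hdz' hbz' pa pb pz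
    hα0 hα1 hδ0 hδ1 (by rw [na]; exact ha) (by rw [na, dm]; exact han) (by rw [nd]; exact hd)
    (by rw [nd, dm]; exact hdn)
  have e1 : ∀ i j, inner ℝ (a i) (d j) = Nt c c' (A i) (D j) := by
    intro i j
    rw [ha', hd', inner_el (ea i) (ed j), int_mixed (hA i) (hD j)]
  have e2 : ∀ i j, inner ℝ (a i) (a j) = ∫ z, A i z * A j z ∂(gI ι) := by
    intro i j
    rw [ha', inner_el (ea i) (ea j)]
    exact int_fst (f := fun z => A i z * A j z) ((hA i).mul (hA j))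
  have e3 : ∀ i j, inner ℝ (d i) (d j) = ∫ z, D i z * D j z ∂(gI ι) := by
    intro i j
    rw [hd', inner_el (ed i) (ed j)]
    exact int_mx (f := fun z => D i z * D j z) ((hD i).mul (hD j)) hcc
  have e4 : dt (gm a d) (gm a d) = ∑ i, ∑ j, Nt c c' (A i) (D j) ^ 2 := by
    simp only [dt, gm, e1, _root_.sq]
  rw [e4, Gf_eq_sum] at h
  simp only [e1, e2, e3] at h
  exact h

end Vale.Agent.P146.H632
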