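import Vale.Agent.P146.H632.LamB
import Vale.Agent.P146.H332.RowD

/-!
P146, plan R1, row LAM: the fixed bulk inequality for two row fields (structure `OGF` of helper332)
at the times `s1 ≤ s2`.
-/

open Finset Matrix MeasureTheory ProbabilityTheory

set_option linter.unusedSectionVars false

namespace Vale.Agent.P146.H632

open Vale.Agent.P157.Lv Vale.Agent.P146.H546 Vale.Agent.P146.H425 Vale.Agent.P146.R1
  Vale.Agent.P146.H712 Vale.Agent.P146.R1C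

variable {ι : Type} [Fintype ι] [DecidableEq ι]

/-- a total derivative gives partial derivatives -/
lemma pd_lf {F : (ι → ℝ) → ℝ} {F1 : ι → (ι → ℝ) → ℝ}
    (h : ∀ y, HasFDerivAt F (H785.lf fun j => F1 j y) y) (e : ι) : PD e F (F1 e) :=
  H325.pd_of_fd (fun u => (h u).congr_fderiv (by
    ext w
    rw [H785.lf_apply, _root_.sum_apply]
    simp)) e

lemma ogf_zero {a : ι → (ι → ℝ) → ℝ} {H : ι → ι → (ι → ℝ) → ℝ} (h : OGF a H) (i : ι) :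
    ∫ y, a i y ∂(gI ι) = 0 := by
  have h1 := int_neg' (h.eg i).meas
  simp only [h.odd, integral_neg] at h1
  linarith

lemma var_smul (c : ℝ) (f : (ι → ℝ) → ℝ) :
    ∫ y, (c * f y - ∫ y, c * f y ∂(gI ι)) ^ 2 ∂(gI ι) =
      c ^ 2 * ∫ y, (f y - ∫ y, f y ∂(gI ι)) ^ 2 ∂(gI ι) := by
  rw [integral_const_mul, ← integral_const_mul (c ^ 2)]
  congr 1
  funext y
  ring

/-- The quadratic functional of the two row fields: all integrals over the row. -/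
noncomputable def Nw (s1 s2 : ℝ) (f g : (ι → ℝ) → ℝ) : ℝ :=
  ∫ y, ∫ y', f (√s1 • y) * g (√s1 • y + √(s2 - s1) • y') ∂(gI ι) ∂(gI ι)

/-- **(LAM), fixed bulk, two row fields.** -/
theorem lam_ogf {G1 G2 : ι → (ι → ℝ) → ℝ} {K1 K2 : ι → ι → (ι → ℝ) → ℝ} (h1 : OGF G1 K1)
    (h2 : OGF G2 K2) {s1 s2 : ℝ} (hs1 : 0 < s1) (hs : s1 ≤ s2)
    {α0 α1 δ0 δ1 : ℝ} (hα0 : 0 ≤ α0) (hα1 : 0 ≤ α1) (hδ0 : 0 ≤ δ0) (hδ1 : 0 ≤ δ1)
    (ha : ∫ y, ∑ i, G1 i (√s1 • y) ^ 2 ∂(gI ι) ≤ α0 ^ 2)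
    (han : s1 * ∑ i, ∑ j, ∫ y, (K1 i j (√s1 • y) - ∫ y, K1 i j (√s1 • y) ∂(gI ι)) ^ 2 ∂(gI ι)
      ≤ α1 ^ 2)
    (hd : ∫ y, ∑ i, G2 i (√s2 • y) ^ 2 ∂(gI ι) ≤ δ0 ^ 2)
    (hdn : s2 * ∑ i, ∑ j, ∫ y, (K2 i j (√s2 • y) - ∫ y, K2 i j (√s2 • y) ∂(gI ι)) ^ 2 ∂(gI ι)
      ≤ δ1 ^ 2) :
    (s2 - s1) / (2 * s1) * ∑ i, ∑ j, Nw s1 s2 (G1 i) (G2 j) ^ 2 ≤
      ∑ i, ∑ j, ((∫ y, G1 i (√s1 • y) * G1 j (√s1 • y) ∂(gI ι)) *
        (∫ y, G2 i (√s2 • y) * G2 j (√s2 • y) ∂(gI ι)) - Nw s1 s2 (G1 i) (G2 j) ^ 2) +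
        s2 / s1 * (α0 * δ1 + α1 * δ0) ^ 2 := by
  have hs2 : 0 < s2 := lt_of_lt_of_le hs1 hs
  have q1 : 0 < √s1 := Real.sqrt_pos.2 hs1
  have q2 : 0 < √s2 := Real.sqrt_pos.2 hs2
  have e1 : √s1 ^ 2 = s1 := Real.sq_sqrt hs1.le
  have e2 : √s2 ^ 2 = s2 := Real.sq_sqrt hs2.le
  have e3 : √(s2 - s1) ^ 2 = s2 - s1 := Real.sq_sqrt (by linarith)
  have o1 := h1.avg (√s1) 0
  have o2 := h2.avg (√s2) 0
  have z1 := ogf_zero o1
  have z2 := ogf_zero o2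
  simp only [av2_zero] at z1 z2
  have v0 : ∀ (c : ℝ) (G : (ι → ℝ) → ℝ), av2 c 0 G = fun y => G (c • y) :=
    fun c G => funext fun y => av2_zero c G y
  have A1 : ∀ i, EG fun y => G1 i (√s1 • y) := fun i => by
    have := o1.eg i
    rwa [v0] at this
  have A2 : ∀ i, EG fun y => G2 i (√s2 • y) := fun i => by
    have := o2.eg i
    rwa [v0] at this
  have B1 : ∀ i j, PD j (fun y => G1 i (√s1 • y)) (fun y => √s1 * K1 i j (√s1 • y)) := by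
    intro i j
    have := pd_lf (F := fun y => av2 (√s1) 0 (G1 i) y)
      (F1 := fun j y => √s1 * av2 (√s1) 0 (K1 i j) y) (fun y => o1.fd i y) j
    simpa only [av2_zero] using this
  have B2 : ∀ i j, PD j (fun y => G2 i (√s2 • y)) (fun y => √s2 * K2 i j (√s2 • y)) := by
    intro i j
    have := pd_lf (F := fun y => av2 (√s2) 0 (G2 i) y)
      (F1 := fun j y => √s2 * av2 (√s2) 0 (K2 i j) y) (fun y => o2.fd i y) j
    simpa only [av2_zero] using this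
  have C1 : ∀ i j, EG fun y => √s1 * K1 i j (√s1 • y) := fun i j => by
    have := o1.egH i j
    simpa only [av2_zero] using this
  have C2 : ∀ i j, EG fun y => √s2 * K2 i j (√s2 • y) := fun i j => by
    have := o2.egH i j
    simpa only [av2_zero] using this
  have S1 : ∀ i j, ∫ y, √s1 * K1 i j (√s1 • y) ∂(gI ι) = ∫ y, √s1 * K1 j i (√s1 • y) ∂(gI ι) := by
    intro i j
    simp only [h1.sym i j]
  have S2 : ∀ i j, ∫ y, √s2 * K2 i j (√s2 • y) ∂(gI ι) = ∫ y, √s2 * K2 j i (√s2 • y) ∂(gI ι) := by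
    intro i j
    simp only [h2.sym i j]
  have F1 := nl_le A1 B1 C1 S1 z1
  have F2 := nl_le A2 B2 C2 S2 z2
  have E1 : ∑ i, ∑ j, ∫ y, (√s1 * K1 i j (√s1 • y) -
      ∫ y, √s1 * K1 i j (√s1 • y) ∂(gI ι)) ^ 2 ∂(gI ι) =
      s1 * ∑ i, ∑ j, ∫ y, (K1 i j (√s1 • y) - ∫ y, K1 i j (√s1 • y) ∂(gI ι)) ^ 2 ∂(gI ι) := by
    rw [Finset.mul_sum]
    refine Finset.sum_congr rfl fun i _ => ?_
    rw [Finset.mul_sum]
    refine Finset.sum_congr rfl fun j _ => ?_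
    rw [var_smul (√s1) (fun y => K1 i j (√s1 • y)), e1]
  have E2 : ∑ i, ∑ j, ∫ y, (√s2 * K2 i j (√s2 • y) -
      ∫ y, √s2 * K2 i j (√s2 • y) ∂(gI ι)) ^ 2 ∂(gI ι) =
      s2 * ∑ i, ∑ j, ∫ y, (K2 i j (√s2 • y) - ∫ y, K2 i j (√s2 • y) ∂(gI ι)) ^ 2 ∂(gI ι) := by
    rw [Finset.mul_sum]
    refine Finset.sum_congr rfl fun i _ => ?_
    rw [Finset.mul_sum]
    refine Finset.sum_congr rfl fun j _ => ?_
    rw [var_smul (√s2) (fun y => K2 i j (√s2 • y)), e2]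
  rw [E1] at F1
  rw [E2] at F2
  have hcc : (√s1 / √s2) ^ 2 + (√(s2 - s1) / √s2) ^ 2 = 1 := by
    rw [div_pow, div_pow, e1, e2, e3, ← add_div, add_sub_cancel, div_self hs2.ne']
  have h := lam_gauss A1 A2 B1 C1 B2 C2 S1 S2 (c := √s1 / √s2) (c' := √(s2 - s1) / √s2)
    (div_pos q1 q2) hcc hα0 hα1 hδ0 hδ1 ha (F1.trans han) hd (F2.trans hdn)
  have k1 : (√(s2 - s1) / √s2) ^ 2 / (2 * (√s1 / √s2) ^ 2) = (s2 - s1) / (2 * s1) := by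
    rw [div_pow, div_pow, e1, e2, e3]
    field_simp
  have k2 : 1 / (√s1 / √s2) ^ 2 = s2 / s1 := by
    rw [div_pow, e1, e2, one_div, inv_div]
  have k3 : ∀ i j, Nt (√s1 / √s2) (√(s2 - s1) / √s2) (fun y => G1 i (√s1 • y))
      (fun y => G2 j (√s2 • y)) = Nw s1 s2 (G1 i) (G2 j) := by
    intro i j
    unfold Nt Nw
    have k4 : ∀ y y' : ι → ℝ, √s2 • ((√s1 / √s2) • y + (√(s2 - s1) / √s2) • y') =
        √s1 • y + √(s2 - s1) • y' := by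
      intro y y'
      rw [smul_add, smul_smul, smul_smul, mul_div_cancel₀ _ q2.ne', mul_div_cancel₀ _ q2.ne']
    simp only [k4]
  rw [k1, k2] at h
  simp only [k3] at h
  exact h

end Vale.Agent.P146.H632
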