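import Vale.Agent.P146.H632.LamC
import Vale.Agent.P146.H332.CRow

/-!
P146, plan R1, row LAM: the fixed bulk inequality in the coordinates `K4 (Pair n)`, for any model
(structure `RowIn` of helper332) and the SK instance in the letters of `CDef`.
-/

open MeasureTheory ProbabilityTheory

set_option linter.unusedSectionVars false

namespace Vale.Agent.P146.H632

open Vale.Agent.P157.Lv Vale.Agent.P146.H425 Vale.Agent.P146.H325 Vale.Agent.P146.R1
  Vale.Agent.P146.H712 Vale.Agent.P146.R1C Vale.Agent.P146.H332 Matrix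

variable {n : ℕ} {k s : ℝ} {A : (Pair n → ℝ) → Matrix (Fin n) (Fin n) ℝ}
  {DA : Pair n → (Pair n → ℝ) → Matrix (Fin n) (Fin n) ℝ}
  {H : Fin n → (Pair n → ℝ) → Matrix (Fin n) (Fin n) ℝ}

/-- The variance of the (clean) row gradient over the rows `b`, `b'` at the position `z`. -/
noncomputable def hvr (H : Fin n → (Pair n → ℝ) → Matrix (Fin n) (Fin n) ℝ) (s : ℝ)
    (b b' : Fin n) (z : Pair n → ℝ) : ℝ :=
  ∑ i, ∑ j, AvP s (row b ∪ row b') (fun u => (AvP s (row b') (fun u => H b u i j) u -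
    AvP s (row b ∪ row b') (fun u => H b u i j) u) ^ 2) z

/-- `E_y |a|²` -/
noncomputable def eer (A : (Pair n → ℝ) → Matrix (Fin n) (Fin n) ℝ) (s : ℝ)
    (b b' : Fin n) (z : Pair n → ℝ) : ℝ :=
  ∑ i, AvP s (row b ∪ row b') (fun u => clz A s b b' u i ^ 2) z

lemma hvr_term_nonneg (b b' : Fin n) (z : Pair n → ℝ) (i j : Fin n) :
    0 ≤ AvP s (row b ∪ row b') (fun u => (AvP s (row b') (fun u => H b u i j) u -
      AvP s (row b ∪ row b') (fun u => H b u i j) u) ^ 2) z :=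
  AvP_nonneg (fun _ => sq_nonneg _) z

lemma hvr_nonneg (b b' : Fin n) (z : Pair n → ℝ) : 0 ≤ hvr H s b b' z :=
  Finset.sum_nonneg fun i _ => Finset.sum_nonneg fun j _ => hvr_term_nonneg b b' z i j

lemma eer_nonneg (b b' : Fin n) (z : Pair n → ℝ) : 0 ≤ eer A s b b' z :=
  Finset.sum_nonneg fun _ _ => AvP_nonneg (fun _ => sq_nonneg _) z

lemma eer_row (hA : ∀ i j, EG fun z => A z i j) (b b' : Fin n) (z : Pair n → ℝ) :
    ∫ y, ∑ i, gr A s b b' z i (√s • y) ^ 2 ∂(gI (Fin n)) = eer A s b b' z := by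
  have hE : ∀ i, EG fun y : Fin n → ℝ => gr A s b b' z i (√s • y) ^ 2 := by
    intro i
    have h1 : EG (gr A s b b' z i) := eg_put (eg_clz hA s b b' i) b z
    have h2 := eg_av2 h1 (√s) 0
    have h3 : av2 (√s) 0 (gr A s b b' z i) = fun y => gr A s b b' z i (√s • y) :=
      funext fun y => av2_zero _ _ _
    rw [h3] at h2
    exact h2.pow 2
  rw [integral_finsetSum _ fun i _ => (hE i).integrable]
  refine Finset.sum_congr rfl fun i _ => ?_
  have h := Av_a (s := s) hA (b := b) (b' := b') i i z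
  simp only [← _root_.sq] at h
  exact h.symm

lemma AvP_ind_sub {R : Finset (Pair n)} {φ : (Pair n → ℝ) → ℝ} (hφ : Ind R φ)
    (f : (Pair n → ℝ) → ℝ) (z : Pair n → ℝ) :
    AvP s R (fun u => (f u - φ u) ^ 2) z = AvP s R (fun u => (f u - φ z) ^ 2) z := by
  unfold AvP
  congr 1
  funext g
  simp only
  rw [hφ z (√s • g)]

/-- the variance of one entry of the Jacobian over the row -/
lemma kr_var_le (hH : ∀ b i j, EG fun z => H b z i j) (b b' : Fin n) (z : Pair n → ℝ)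
    (i j : Fin n) :
    ∫ y, (kr k H s b b' z i j (√s • y) - ∫ y, kr k H s b b' z i j (√s • y) ∂(gI (Fin n))) ^ 2
      ∂(gI (Fin n)) ≤ k ^ 2 * AvP s (row b ∪ row b') (fun u =>
        (AvP s (row b') (fun u => H b u i j) u -
          AvP s (row b ∪ row b') (fun u => H b u i j) u) ^ 2) z := by
  by_cases h1 : (i = b ∨ i = b') ∨ j = b ∨ j = b'
  · have e0 : ∀ v, kr k H s b b' z i j v = 0 := mean_kr_zero h1 z
    simp only [e0, integral_zero, sub_zero]
    have := hvr_term_nonneg (H := H) (s := s) b b' z i j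
    have h2 : 0 ≤ k ^ 2 * AvP s (row b ∪ row b') (fun u =>
        (AvP s (row b') (fun u => H b u i j) u -
          AvP s (row b ∪ row b') (fun u => H b u i j) u) ^ 2) z := mul_nonneg (sq_nonneg k) this
    simpa using h2
  · have hi : i ≠ b := fun e => h1 (Or.inl (Or.inl e))
    have hi' : i ≠ b' := fun e => h1 (Or.inl (Or.inr e))
    have hj : j ≠ b := fun e => h1 (Or.inr (Or.inl e))
    have hj' : j ≠ b' := fun e => h1 (Or.inr (Or.inr e))
    rw [mean_kr hH hi hi' hj hj']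
    set m : ℝ := AvP s (row b ∪ row b') (fun u => H b u i j) z with hm
    have e1 : ∀ v, kr k H s b b' z i j v = k * AvP s (row b') (fun u => H b u i j) (put b v z) := by
      intro v
      unfold kr hlz
      rw [if_neg h1]
    simp only [e1]
    have hE : EG (AvP s (row b') fun u => H b u i j) := eg_AvP (hH b i j) s _
    have h2 := int_row b (f := fun u => (k * AvP s (row b') (fun u => H b u i j) u - k * m) ^ 2)
      (((hE.const_mul k).sub (EG.const _)).pow 2) s z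
    rw [h2]
    have hind : Ind (row b') fun u => (k * AvP s (row b') (fun u => H b u i j) u - k * m) ^ 2 := by
      intro z w
      simp only
      rw [ind_AvP s (row b') (fun u => H b u i j) z w]
    rw [← AvP_union_ind (((hE.const_mul k).sub (EG.const _)).pow 2) hind,
      AvP_ind_sub (ind_AvP s (row b ∪ row b') fun u => H b u i j)]
    have h3 := AvP_const_mul (s := s) (R := row b ∪ row b') (k ^ 2)
      (fun u => (AvP s (row b') (fun u => H b u i j) u -
        AvP s (row b ∪ row b') (fun u => H b u i j) z) ^ 2) z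
    rw [← h3]
    refine le_of_eq (congrArg (fun F => AvP s (row b ∪ row b') F z) (funext fun u => ?_))
    rw [← hm]
    ring

/-- **(LAM), fixed bulk, any model.** -/
theorem lam_row {q : Par} {A1 A2 : (Pair n → ℝ) → Matrix (Fin n) (Fin n) ℝ}
    {DA1 DA2 : Pair n → (Pair n → ℝ) → Matrix (Fin n) (Fin n) ℝ}
    {H1 H2 : Fin n → (Pair n → ℝ) → Matrix (Fin n) (Fin n) ℝ} (hq : q.Ok) (hs : 0 < q.s1)
    (h1 : RowIn k A1 DA1 H1) (h2 : RowIn k A2 DA2 H2) {b b' : Fin n} (hb : b ≠ b')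
    (w : K4 (Pair n) → ℝ) :
    (q.s2 - q.s1) / (2 * q.s1) * ∑ i, ∑ j, (Av (lf (row b ∪ row b'))
      (fun w => clz A1 q.s1 b b' (P2 q w) i * clz A2 q.s2 b b' (P3 q w) j) w) ^ 2 ≤
    ∑ i, ∑ j, (Av (lf (row b ∪ row b'))
        (fun w => clz A1 q.s1 b b' (P2 q w) i * clz A1 q.s1 b b' (P2 q w) j) w *
      Av (lf (row b ∪ row b'))
        (fun w => clz A2 q.s2 b b' (P3 q w) i * clz A2 q.s2 b b' (P3 q w) j) w -
      (Av (lf (row b ∪ row b'))
        (fun w => clz A1 q.s1 b b' (P2 q w) i * clz A2 q.s2 b b' (P3 q w) j) w) ^ 2) +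
    2 * (q.s2 / q.s1) * (eer A1 q.s1 b b' (P2 q w) * (q.s2 * k ^ 2 * hvr H2 q.s2 b b' (P3 q w)) +
      (q.s1 * k ^ 2 * hvr H1 q.s1 b b' (P2 q w)) * eer A2 q.s2 b b' (P3 q w)) := by
  have hs2 : 0 < q.s2 := lt_of_lt_of_le hs hq.h12
  set ea := eer A1 q.s1 b b' (P2 q w) with hea
  set ed := eer A2 q.s2 b b' (P3 q w) with hed
  set na := q.s1 * k ^ 2 * hvr H1 q.s1 b b' (P2 q w) with hna
  set nd := q.s2 * k ^ 2 * hvr H2 q.s2 b b' (P3 q w) with hnd
  have pea : 0 ≤ ea := eer_nonneg b b' _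
  have ped : 0 ≤ ed := eer_nonneg b b' _
  have pna : 0 ≤ na := mul_nonneg (mul_nonneg hs.le (sq_nonneg k)) (hvr_nonneg b b' _)
  have pnd : 0 ≤ nd := mul_nonneg (mul_nonneg hs2.le (sq_nonneg k)) (hvr_nonneg b b' _)
  have v1 : q.s1 * ∑ i, ∑ j, ∫ y, (kr k H1 q.s1 b b' (P2 q w) i j (√q.s1 • y) -
      ∫ y, kr k H1 q.s1 b b' (P2 q w) i j (√q.s1 • y) ∂(gI (Fin n))) ^ 2 ∂(gI (Fin n)) ≤ na := by
    rw [hna, mul_assoc]
    refine mul_le_mul_of_nonneg_left ?_ hs.le
    unfold hvr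
    rw [Finset.mul_sum]
    refine Finset.sum_le_sum fun i _ => ?_
    rw [Finset.mul_sum]
    exact Finset.sum_le_sum fun j _ => kr_var_le h1.egH b b' _ i j
  have v2 : q.s2 * ∑ i, ∑ j, ∫ y, (kr k H2 q.s2 b b' (P3 q w) i j (√q.s2 • y) -
      ∫ y, kr k H2 q.s2 b b' (P3 q w) i j (√q.s2 • y) ∂(gI (Fin n))) ^ 2 ∂(gI (Fin n)) ≤ nd := by
    rw [hnd, mul_assoc]
    refine mul_le_mul_of_nonneg_left ?_ hs2.le
    unfold hvr
    rw [Finset.mul_sum]
    refine Finset.sum_le_sum fun i _ => ?_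
    rw [Finset.mul_sum]
    exact Finset.sum_le_sum fun j _ => kr_var_le h2.egH b b' _ i j
  have key := lam_ogf (ogf_row h1 hb q.s1 (P2 q w)) (ogf_row h2 hb q.s2 (P3 q w)) hs hq.h12
    (Real.sqrt_nonneg ea) (Real.sqrt_nonneg na) (Real.sqrt_nonneg ed) (Real.sqrt_nonneg nd)
    (by rw [Real.sq_sqrt pea, hea, eer_row h1.egA])
    (by rw [Real.sq_sqrt pna]; exact v1)
    (by rw [Real.sq_sqrt ped, hed, eer_row h2.egA])
    (by rw [Real.sq_sqrt pnd]; exact v2)
  have e1 : ∀ i j, Nw q.s1 q.s2 (gr A1 q.s1 b b' (P2 q w) i) (gr A2 q.s2 b b' (P3 q w) j) =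
      Av (lf (row b ∪ row b'))
        (fun w => clz A1 q.s1 b b' (P2 q w) i * clz A2 q.s2 b b' (P3 q w) j) w := by
    intro i j
    rw [Av_ad hq h1.egA h2.egA]
    rfl
  have e2 : ∀ i j, ∫ y, gr A1 q.s1 b b' (P2 q w) i (√q.s1 • y) *
      gr A1 q.s1 b b' (P2 q w) j (√q.s1 • y) ∂(gI (Fin n)) = Av (lf (row b ∪ row b'))
        (fun w => clz A1 q.s1 b b' (P2 q w) i * clz A1 q.s1 b b' (P2 q w) j) w :=
    fun i j => (Av_aa hq h1.egA i j w).symm
  have e3 : ∀ i j, ∫ y, gr A2 q.s2 b b' (P3 q w) i (√q.s2 • y) *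
      gr A2 q.s2 b b' (P3 q w) j (√q.s2 • y) ∂(gI (Fin n)) = Av (lf (row b ∪ row b'))
        (fun w => clz A2 q.s2 b b' (P3 q w) i * clz A2 q.s2 b b' (P3 q w) j) w := by
    intro i j
    rw [Av_lf_P3 hq (f := fun z => clz A2 q.s2 b b' z i * clz A2 q.s2 b b' z j)
      ((eg_clz h2.egA q.s2 b b' i).mul (eg_clz h2.egA q.s2 b b' j)), Av_a h2.egA]
  simp only [e1, e2, e3] at key
  refine key.trans ?_
  have e4 : (√ea * √nd + √na * √ed) ^ 2 ≤ 2 * (ea * nd + na * ed) := by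
    have r1 : (√ea * √nd) ^ 2 = ea * nd := by rw [mul_pow, Real.sq_sqrt pea, Real.sq_sqrt pnd]
    have r2 : (√na * √ed) ^ 2 = na * ed := by rw [mul_pow, Real.sq_sqrt pna, Real.sq_sqrt ped]
    nlinarith [sq_nonneg (√ea * √nd - √na * √ed)]
  have e5 := mul_le_mul_of_nonneg_left e4 (div_pos hs2 hs).le
  linarith

end Vale.Agent.P146.H632
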