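import Vale.Agent.P146.H632.LamD
import Vale.Agent.P146.H941.CDefS

/-!
P146, plan R1, row LAM: the fixed bulk inequality in the letters of `CDef` and of `CDefS`.
-/

open MeasureTheory ProbabilityTheory

set_option linter.unusedSectionVars false

namespace Vale.Agent.P146.R1C

open Vale.Agent.P157.Lv Vale.Agent.P146.H425 Vale.Agent.P146.H325 Vale.Agent.P146.R1
  Vale.Agent.P146.H712 Vale.Agent.P146.H332 Vale.Agent.P146.H632 Matrix

variable {n : ℕ} {k : ℝ}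

lemma sum_ip_sub_fr (X Y N : Matrix (Fin n) (Fin n) ℝ) :
    ∑ i, ∑ j, (X i j * Y i j - N i j ^ 2) = ip X Y - fr N := by
  unfold ip fr
  rw [← Finset.sum_sub_distrib]
  exact Finset.sum_congr rfl fun i _ => Finset.sum_sub_distrib _ _

lemma ee_eer {x s : ℝ} (b b' : Fin n) (z : Pair n → ℝ) :
    ee k x s b b' z = eer (AA k x s) s b b' z := by
  show AvP s (row b ∪ row b') (fun z => ∑ i, clz (AA k x s) s b b' z i ^ 2) z = _
  exact AvP_sum (R := row b ∪ row b') (s := s) Finset.univ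
    (f := fun i z => clz (AA k x s) s b b' z i ^ 2)
    (fun i _ => (eg_clz (fun i j => eg_AA s i j) s b b' i).pow 2) z

/-- **(LAM), fixed bulk, SK.** -/
theorem lam_fix {q : Par} (hq : q.Ok) (hs : 0 < q.s1) {b b' : Fin n} (hb : b ≠ b')
    (w : K4 (Pair n) → ℝ) :
    (q.s2 - q.s1) / (2 * q.s1) * fr (Nd k q b b' w) ≤ Gb k q b b' w +
    2 * (q.s2 / q.s1) * (ee k q.x q.s1 b b' (P2 q w) *
        (q.s2 * k ^ 2 * hvr (HH k q.x q.s2) q.s2 b b' (P3 q w)) +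
      (q.s1 * k ^ 2 * hvr (HH k q.x q.s1) q.s1 b b' (P2 q w)) *
        ee k q.x q.s2 b b' (P3 q w)) := by
  have h := lam_row hq hs (rowIn_sk (n := n) (k := k) hs hq.x0.le hq.x1)
    (rowIn_sk (n := n) (k := k) (lt_of_lt_of_le hs hq.h12) hq.x0.le hq.x1) hb w
  rw [ee_eer, ee_eer]
  unfold Gb
  rw [← sum_ip_sub_fr]
  exact h

end Vale.Agent.P146.R1C

namespace Vale.Agent.P146.R1S

open Vale.Agent.P157.Lv Vale.Agent.P146.H425 Vale.Agent.P146.H325 Vale.Agent.P146.R1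
  Vale.Agent.P146.H712 Vale.Agent.P146.H332 Vale.Agent.P146.H632 Vale.Agent.P146.R1C Matrix

variable {n : ℕ} {k x : ℝ}

lemma ee_eer {S : CS n k x} {s : ℝ} (hA : ∀ i j, EG fun z => S.A s z i j) (b b' : Fin n)
    (z : Pair n → ℝ) : ee S s b b' z = eer (S.A s) s b b' z := by
  show AvP s (row b ∪ row b') (fun z => ∑ i, clz (S.A s) s b b' z i ^ 2) z = _
  exact AvP_sum (R := row b ∪ row b') (s := s) Finset.univ
    (f := fun i z => clz (S.A s) s b b' z i ^ 2)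
    (fun i _ => (eg_clz hA s b b' i).pow 2) z

/-- **(LAM), fixed bulk, any system.** -/
theorem lam_fix {S : CS n k x} {q : Par} (hq : q.Ok) (hs : 0 < q.s1)
    (h1 : RowIn k (S.A q.s1) (S.DA q.s1) (S.H q.s1))
    (h2 : RowIn k (S.A q.s2) (S.DA q.s2) (S.H q.s2)) {b b' : Fin n} (hb : b ≠ b')
    (w : K4 (Pair n) → ℝ) :
    (q.s2 - q.s1) / (2 * q.s1) * fr (Nd S q b b' w) ≤ Gb S q b b' w +
    2 * (q.s2 / q.s1) * (ee S q.s1 b b' (P2 q w) *
        (q.s2 * k ^ 2 * hvr (S.H q.s2) q.s2 b b' (P3 q w)) +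
      (q.s1 * k ^ 2 * hvr (S.H q.s1) q.s1 b b' (P2 q w)) * ee S q.s2 b b' (P3 q w)) := by
  have h := lam_row hq hs h1 h2 hb w
  rw [ee_eer h1.egA, ee_eer h2.egA]
  unfold Gb
  rw [← sum_ip_sub_fr]
  exact h

end Vale.Agent.P146.R1S
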